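import Vale.Agent.Lib.P050.Hier

namespace Vale.Agent.Results.P050.HierKernel

open Vale.Agent.Lib.P050

/-- Sidorenko's inequality `t(H,w) ≥ t(K₂,w)^{e(H)}` for EVERY bipartite graph `H = (A, B, E)` and
every weighted symmetric nonnegative step kernel `w` (diagonal entries allowed) on a finite
probability space `(W, μ)` which is hierarchical: every set `U` of at least two steps splits into
two nonempty parts between which `w` is constant. -/
theorem result {A B W : Type} [Fintype A] [Fintype B] [Fintype W]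
    [DecidableEq A] [DecidableEq B] [DecidableEq W]
    (E : Finset (A × B)) (w : W → W → ℝ) (hw : ∀ i j, 0 ≤ w i j) (hsym : ∀ i j, w i j = w j i)
    (hier : ∀ U : Finset W, 2 ≤ U.card → ∃ U₁ U₂ : Finset W, U₁.Nonempty ∧ U₂.Nonempty ∧
      Disjoint U₁ U₂ ∧ U₁ ∪ U₂ = U ∧ ∃ c : ℝ, ∀ i ∈ U₁, ∀ j ∈ U₂, w i j = c)
    (μ : W → ℝ) (hμ : ∀ i, 0 ≤ μ i) (hμ1 : ∑ i, μ i = 1) :
    (∑ i, ∑ j, μ i * μ j * w i j) ^ E.card
      ≤ ∑ f : A → W, ∑ g : B → W, (∏ x, μ (f x)) * (∏ y, μ (g y))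
          * ∏ e ∈ E, w (f e.1) (g e.2) := by
  exact sidorenko_hier E w hw hsym hier μ hμ hμ1

end Vale.Agent.Results.P050.HierKernel
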