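import Vale.Agent.Lib.P050.Rank2

namespace Vale.Agent.Results.P050.Rank2Kernel

open Vale.Agent.Lib.P050

/-- Sidorenko's inequality `t(H,w) ≥ (∫ w)^{e(H)}` for EVERY bipartite graph `H = (A, B, E)` and
every nonnegative kernel of rank at most two, `w(x,y) = a(x) b(y) + c(x) d(y)` with `a, b > 0` and
`c, d` arbitrary real functions, on a product of two finite probability spaces. -/
theorem result {X Y A B : Type} [Fintype X] [Fintype Y]
    [Fintype A] [Fintype B] [DecidableEq A] [DecidableEq B] (E : Finset (A × B))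
    (μ : X → ℝ) (ν : Y → ℝ) (hμ : ∀ x, 0 ≤ μ x) (hν : ∀ y, 0 ≤ ν y)
    (hμ1 : ∑ x, μ x = 1) (hν1 : ∑ y, ν y = 1) (a c : X → ℝ) (b d : Y → ℝ)
    (ha : ∀ x, 0 < a x) (hb : ∀ y, 0 < b y) (hw : ∀ x y, 0 ≤ a x * b y + c x * d y) :
    (∑ x, ∑ y, μ x * ν y * (a x * b y + c x * d y)) ^ E.card
      ≤ ∑ f : A → X, ∑ g : B → Y, (∏ i, μ (f i)) * (∏ j, ν (g j))
          * ∏ e ∈ E, (a (f e.1) * b (g e.2) + c (f e.1) * d (g e.2)) :=
  sidorenko_rank2 E μ ν hμ hν hμ1 hν1 a c b d ha hb hw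

end Vale.Agent.Results.P050.Rank2Kernel
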