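import Vale.Agent.Lib.P050.Rect

namespace Vale.Agent.Results.P050.TP2Kernel

open Vale.Agent.Lib.P050

/-- Sidorenko's inequality `t(H,w) ≥ (∫ w)^{e(H)}` for EVERY bipartite graph `H = (A, B, E)` and
every nonnegative kernel `w` on a product of two finite weighted chains that is totally positive
of order two (all `2 × 2` minors are nonnegative). -/
theorem result {X Y A B : Type} [Fintype X] [LinearOrder X] [Fintype Y] [LinearOrder Y]
    [Fintype A] [Fintype B] [DecidableEq A] [DecidableEq B] (E : Finset (A × B))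
    (μ : X → ℝ) (ν : Y → ℝ) (hμ : ∀ x, 0 ≤ μ x) (hν : ∀ y, 0 ≤ ν y)
    (hμ1 : ∑ x, μ x = 1) (hν1 : ∑ y, ν y = 1) (w : X → Y → ℝ) (hw : ∀ x y, 0 ≤ w x y)
    (hT : ∀ x x' y y', x ≤ x' → y ≤ y' → w x y' * w x' y ≤ w x y * w x' y') :
    (∑ x, ∑ y, μ x * ν y * w x y) ^ E.card
      ≤ ∑ f : A → X, ∑ g : B → Y, (∏ a, μ (f a)) * (∏ b, ν (g b))
          * ∏ e ∈ E, w (f e.1) (g e.2) :=
  sidorenko_rect E μ ν hμ hν hμ1 hν1 w hw hT

end Vale.Agent.Results.P050.TP2Kernel
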