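import Vale.Agent.Results.P050.Cograph
import Vale.Agent.Results.P050.HierKernel
import Vale.Agent.Results.P050.Rank2Kernel
import Vale.Agent.Results.P050.TP2Kernel

/-!
# P050 (Sidorenko's conjecture): the inequality for ALL bipartite `H` against four classes of hosts

(1) host graphs without induced path on four vertices (cographs);
(2) hierarchical symmetric weighted step kernels;
(3) nonnegative step kernels of rank at most two, `a(x) b(y) + c(x) d(y)` with `a, b > 0`;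
(4) step kernels that are totally positive of order two.
-/

namespace Vale.Agent.Results.P050.A_Combined

theorem result :
    (∀ (V W : Type) [Fintype V] [Fintype W] [Nonempty W]
      (H : SimpleGraph V) (G : SimpleGraph W), H.IsBipartite →
      ¬ (SimpleGraph.pathGraph 4).IsIndContained G →
      ((2 * (G.edgeSet.ncard : ℝ)) / (Fintype.card W : ℝ) ^ 2) ^ H.edgeSet.ncard
        ≤ (Nat.card (H →g G) : ℝ) / (Fintype.card W : ℝ) ^ Fintype.card V) ∧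
    (∀ (A B W : Type) [Fintype A] [Fintype B] [Fintype W]
      [DecidableEq A] [DecidableEq B] [DecidableEq W]
      (E : Finset (A × B)) (w : W → W → ℝ), (∀ i j, 0 ≤ w i j) → (∀ i j, w i j = w j i) →
      (∀ U : Finset W, 2 ≤ U.card → ∃ U₁ U₂ : Finset W, U₁.Nonempty ∧ U₂.Nonempty ∧
        Disjoint U₁ U₂ ∧ U₁ ∪ U₂ = U ∧ ∃ c : ℝ, ∀ i ∈ U₁, ∀ j ∈ U₂, w i j = c) →
      ∀ (μ : W → ℝ), (∀ i, 0 ≤ μ i) → ∑ i, μ i = 1 →
      (∑ i, ∑ j, μ i * μ j * w i j) ^ E.card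
        ≤ ∑ f : A → W, ∑ g : B → W, (∏ x, μ (f x)) * (∏ y, μ (g y))
            * ∏ e ∈ E, w (f e.1) (g e.2)) ∧
    (∀ (X Y A B : Type) [Fintype X] [Fintype Y]
      [Fintype A] [Fintype B] [DecidableEq A] [DecidableEq B] (E : Finset (A × B))
      (μ : X → ℝ) (ν : Y → ℝ), (∀ x, 0 ≤ μ x) → (∀ y, 0 ≤ ν y) →
      ∑ x, μ x = 1 → ∑ y, ν y = 1 → ∀ (a c : X → ℝ) (b d : Y → ℝ),
      (∀ x, 0 < a x) → (∀ y, 0 < b y) → (∀ x y, 0 ≤ a x * b y + c x * d y) →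
      (∑ x, ∑ y, μ x * ν y * (a x * b y + c x * d y)) ^ E.card
        ≤ ∑ f : A → X, ∑ g : B → Y, (∏ i, μ (f i)) * (∏ j, ν (g j))
            * ∏ e ∈ E, (a (f e.1) * b (g e.2) + c (f e.1) * d (g e.2))) ∧
    (∀ (X Y A B : Type) [Fintype X] [LinearOrder X] [Fintype Y] [LinearOrder Y]
      [Fintype A] [Fintype B] [DecidableEq A] [DecidableEq B] (E : Finset (A × B))
      (μ : X → ℝ) (ν : Y → ℝ), (∀ x, 0 ≤ μ x) → (∀ y, 0 ≤ ν y) →
      ∑ x, μ x = 1 → ∑ y, ν y = 1 → ∀ (w : X → Y → ℝ), (∀ x y, 0 ≤ w x y) →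
      (∀ x x' y y', x ≤ x' → y ≤ y' → w x y' * w x' y ≤ w x y * w x' y') →
      (∑ x, ∑ y, μ x * ν y * w x y) ^ E.card
        ≤ ∑ f : A → X, ∑ g : B → Y, (∏ a, μ (f a)) * (∏ b, ν (g b))
            * ∏ e ∈ E, w (f e.1) (g e.2)) :=
  ⟨fun _ _ _ _ _ H G hH hG => Vale.Agent.Results.P050.Cograph.result H G hH hG,
    fun _ _ _ _ _ _ _ _ _ E w hw hsym hier μ hμ hμ1 =>
      Vale.Agent.Results.P050.HierKernel.result E w hw hsym hier μ hμ hμ1,
    fun _ _ _ _ _ _ _ _ _ _ E μ ν hμ hν hμ1 hν1 a c b d ha hb hw =>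
      Vale.Agent.Results.P050.Rank2Kernel.result E μ ν hμ hν hμ1 hν1 a c b d ha hb hw,
    fun _ _ _ _ _ _ _ _ _ _ _ _ E μ ν hμ hν hμ1 hν1 w hw hT =>
      Vale.Agent.Results.P050.TP2Kernel.result E μ ν hμ hν hμ1 hν1 w hw hT⟩

end Vale.Agent.Results.P050.A_Combined
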