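import Vale.Agent.Lib.P050.Final

namespace Vale.Agent.Results.P050.Cograph

open Vale.Agent.Lib.P050

/-- Sidorenko's inequality `t(H,G) ≥ p(G)^{e(H)}` for EVERY bipartite graph `H` and every host
graph `G` that has no induced path on four vertices (i.e. every cograph `G`). -/
theorem result {V W : Type} [Fintype V] [Fintype W] [Nonempty W]
    (H : SimpleGraph V) (G : SimpleGraph W) (hH : H.IsBipartite)
    (hG : ¬ (SimpleGraph.pathGraph 4).IsIndContained G) :
    ((2 * (G.edgeSet.ncard : ℝ)) / (Fintype.card W : ℝ) ^ 2) ^ H.edgeSet.ncard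
      ≤ (Nat.card (H →g G) : ℝ) / (Fintype.card W : ℝ) ^ Fintype.card V := by
  refine sidorenko_noP4 H G hH ?_
  intro a b c d hab hbc hcd hac had hbd
  apply hG
  have nab : a ≠ b := hab.ne
  have nbc : b ≠ c := hbc.ne
  have ncd : c ≠ d := hcd.ne
  have nac : a ≠ c := by
    rintro rfl
    exact had hcd
  have nad : a ≠ d := by
    rintro rfl
    exact hac hcd.symm
  have nbd : b ≠ d := by
    rintro rfl
    exact had hab
  refine ⟨⟨⟨![a, b, c, d], ?_⟩, ?_⟩⟩
  · intro i j hij
    fin_cases i <;> fin_cases j <;> simp_all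
  · intro i j
    have hba := hab.symm
    have hcb := hbc.symm
    have hdc := hcd.symm
    have hca : ¬ G.Adj c a := fun h => hac h.symm
    have hda : ¬ G.Adj d a := fun h => had h.symm
    have hdb : ¬ G.Adj d b := fun h => hbd h.symm
    show G.Adj (![a, b, c, d] i) (![a, b, c, d] j) ↔ _
    fin_cases i <;> fin_cases j <;> simp [SimpleGraph.pathGraph_adj, *]

end Vale.Agent.Results.P050.Cograph
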